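import Vale.Agent.Lib.P160.helper4.SSDefs

/-!
# P160: structure of the weights `qq` of the lazy chain (pool piece SS-2a, helper99 copy)

Six lemmas on the weights `qq` of `Vale.Agent.Lib.P160.H4`: they are non-negative, a move of
non-zero weight strictly increases the sum of a positive increasing sequence over the set and
keeps the cardinality or raises it by one, the entries from sets one smaller have total weight
at most `1 / 2`, and the total weights out of and into a set are the explicit sums `outF` and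
`inF`.
-/

namespace Vale.Agent.Lib.P160.H99

open Finset Vale.Agent.Lib.P160.H4

private lemma sum_ite3 {α : Type*} [Fintype α] [DecidableEq α] (A B C : Prop) [Decidable A]
    [Decidable B] [Decidable C] (T : α) (c : ℝ) :
    ∑ x : α, (if A ∧ B ∧ C ∧ x = T then c else 0) = if A ∧ B ∧ C then c else 0 := by
  by_cases hA : A <;> by_cases hB : B <;> by_cases hC : C <;> simp [hA, hB, hC]

private lemma sum_ite2 {α : Type*} [Fintype α] [DecidableEq α] (A B : Prop) [Decidable A]
    [Decidable B] (T : α) (c : ℝ) :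
    ∑ x : α, (if A ∧ B ∧ x = T then c else 0) = if A ∧ B then c else 0 := by
  by_cases hA : A <;> by_cases hB : B <;> simp [hA, hB]

/-- A move of non-zero weight is a hop or an entry. -/
theorem qq_cases (n : ℕ) (S S' : Finset (Fin n)) (h : qq n S S' ≠ 0) :
    (∃ k j : Fin n, j.val = k.val + 1 ∧ k ∈ S ∧ j ∉ S ∧ S' = insert j (S.erase k)) ∨
    (∃ j : Fin n, j.val = 0 ∧ j ∉ S ∧ S' = insert j S) := by
  by_contra hcon
  rw [not_or] at hcon
  obtain ⟨h1, h2⟩ := hcon
  apply h
  unfold qq
  have e1 : ∀ k j : Fin n, (if j.val = k.val + 1 ∧ k ∈ S ∧ j ∉ S ∧ S' = insert j (S.erase k)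
      then 1 - (j.val : ℝ) / n else 0) = 0 := by
    intro k j
    rw [if_neg]
    intro hc
    exact h1 ⟨k, j, hc⟩
  have e2 : ∀ j : Fin n, (if j.val = 0 ∧ j ∉ S ∧ S' = insert j S then (1 / 2 : ℝ) else 0) = 0 := by
    intro j
    rw [if_neg]
    intro hc
    exact h2 ⟨j, hc⟩
  simp only [e1, e2, Finset.sum_const_zero, add_zero]

theorem qq_nonneg (n : ℕ) (S S' : Finset (Fin n)) : 0 ≤ qq n S S' := by
  unfold qq
  refine add_nonneg (Finset.sum_nonneg fun k _ => Finset.sum_nonneg fun j _ => ?_)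
    (Finset.sum_nonneg fun j _ => ?_)
  · split_ifs
    · have hn : (0 : ℝ) < n := by exact_mod_cast (Nat.lt_of_le_of_lt (Nat.zero_le _) j.isLt)
      have hj : (j.val : ℝ) ≤ n := by exact_mod_cast j.isLt.le
      rw [sub_nonneg, div_le_one hn]
      exact hj
    · exact le_rfl
  · split_ifs
    · norm_num
    · exact le_rfl

theorem qq_lt (n : ℕ) (a : Fin n → ℝ) (ha : ∀ i, 0 < a i) (hm : StrictMono a)
    (S S' : Finset (Fin n)) (h : qq n S S' ≠ 0) : ∑ i ∈ S, a i < ∑ i ∈ S', a i := by
  rcases qq_cases n S S' h with ⟨k, j, hjk, hk, hj, rfl⟩ | ⟨j, hj0, hj, rfl⟩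
  · have hj' : j ∉ S.erase k := fun hc => hj (Finset.mem_of_mem_erase hc)
    rw [Finset.sum_insert hj', ← Finset.add_sum_erase S a hk]
    have hlt : a k < a j := hm (Fin.lt_def.mpr (by omega))
    linarith
  · rw [Finset.sum_insert hj]
    linarith [ha j]

theorem qq_card (n : ℕ) (S' S : Finset (Fin n)) (h : qq n S' S ≠ 0) :
    S'.card = S.card ∨ S'.card + 1 = S.card := by
  rcases qq_cases n S' S h with ⟨k, j, hjk, hk, hj, rfl⟩ | ⟨j, hj0, hj, rfl⟩
  · left
    have hj' : j ∉ S'.erase k := fun hc => hj (Finset.mem_of_mem_erase hc)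
    rw [Finset.card_insert_of_notMem hj', Finset.card_erase_of_mem hk]
    have hpos : 0 < S'.card := Finset.card_pos.mpr ⟨k, hk⟩
    omega
  · right
    rw [Finset.card_insert_of_notMem hj]

theorem qq_out_eq (n : ℕ) (S : Finset (Fin n)) : ∑ S', qq n S S' = outF n S := by
  unfold qq outF
  rw [Finset.sum_add_distrib]
  congr 1
  · rw [Finset.sum_comm]
    refine Finset.sum_congr rfl fun k _ => ?_
    rw [Finset.sum_comm]
    refine Finset.sum_congr rfl fun j _ => ?_
    exact sum_ite3 _ _ _ _ _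
  · rw [Finset.sum_comm]
    refine Finset.sum_congr rfl fun j _ => ?_
    exact sum_ite2 _ _ _ _

private lemma hop_iff (n : ℕ) (S S' : Finset (Fin n)) (k j : Fin n) (hjk : j ≠ k) :
    (k ∈ S' ∧ j ∉ S' ∧ S = insert j (S'.erase k)) ↔
      (k ∉ S ∧ j ∈ S ∧ S' = insert k (S.erase j)) := by
  constructor
  · rintro ⟨hk, hj, rfl⟩
    refine ⟨?_, Finset.mem_insert_self _ _, ?_⟩
    · intro hc
      rcases Finset.mem_insert.mp hc with hc | hc
      · exact hjk hc.symm
      · exact Finset.notMem_erase k S' hc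
    · rw [Finset.erase_insert (fun hc => hj (Finset.mem_of_mem_erase hc)), Finset.insert_erase hk]
  · rintro ⟨hk, hj, rfl⟩
    refine ⟨Finset.mem_insert_self _ _, ?_, ?_⟩
    · intro hc
      rcases Finset.mem_insert.mp hc with hc | hc
      · exact hjk hc
      · exact Finset.notMem_erase j S hc
    · rw [Finset.erase_insert (fun hc => hk (Finset.mem_of_mem_erase hc)), Finset.insert_erase hj]

private lemma entry_iff (n : ℕ) (S S' : Finset (Fin n)) (j : Fin n) :
    (j ∉ S' ∧ S = insert j S') ↔ (j ∈ S ∧ S' = S.erase j) := by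
  constructor
  · rintro ⟨hj, rfl⟩
    exact ⟨Finset.mem_insert_self _ _, (Finset.erase_insert hj).symm⟩
  · rintro ⟨hj, rfl⟩
    exact ⟨Finset.notMem_erase j S, (Finset.insert_erase hj).symm⟩

private lemma hop_in (n : ℕ) (S : Finset (Fin n)) (k j : Fin n) (c : ℝ) :
    ∑ S' : Finset (Fin n),
        (if j.val = k.val + 1 ∧ k ∈ S' ∧ j ∉ S' ∧ S = insert j (S'.erase k) then c else 0) =
      if j.val = k.val + 1 ∧ k ∉ S ∧ j ∈ S then c else 0 := by
  have hne : j.val = k.val + 1 → j ≠ k := by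
    intro h e
    rw [e] at h
    omega
  have hstep : ∀ S' : Finset (Fin n),
      (if j.val = k.val + 1 ∧ k ∈ S' ∧ j ∉ S' ∧ S = insert j (S'.erase k) then c else 0) =
        (if j.val = k.val + 1 ∧ k ∉ S ∧ j ∈ S ∧ S' = insert k (S.erase j) then c else 0) := by
    intro S'
    refine if_congr ?_ rfl rfl
    constructor
    · rintro ⟨h1, h2⟩
      exact ⟨h1, (hop_iff n S S' k j (hne h1)).mp h2⟩
    · rintro ⟨h1, h2⟩
      exact ⟨h1, (hop_iff n S S' k j (hne h1)).mpr h2⟩
  rw [Finset.sum_congr rfl (fun S' _ => hstep S')]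
  exact sum_ite3 _ _ _ _ _

private lemma entry_in (n : ℕ) (S : Finset (Fin n)) (j : Fin n) (c : ℝ) :
    ∑ S' : Finset (Fin n), (if j.val = 0 ∧ j ∉ S' ∧ S = insert j S' then c else 0) =
      if j.val = 0 ∧ j ∈ S then c else 0 := by
  have hstep : ∀ S' : Finset (Fin n),
      (if j.val = 0 ∧ j ∉ S' ∧ S = insert j S' then c else 0) =
        (if j.val = 0 ∧ j ∈ S ∧ S' = S.erase j then c else 0) := by
    intro S'
    refine if_congr ?_ rfl rfl
    constructor
    · rintro ⟨h1, h2⟩
      exact ⟨h1, (entry_iff n S S' j).mp h2⟩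
    · rintro ⟨h1, h2⟩
      exact ⟨h1, (entry_iff n S S' j).mpr h2⟩
  rw [Finset.sum_congr rfl (fun S' _ => hstep S')]
  exact sum_ite2 _ _ _ _

theorem qq_in_eq (n : ℕ) (S : Finset (Fin n)) : ∑ S', qq n S' S = inF n S := by
  unfold qq inF
  rw [Finset.sum_add_distrib]
  congr 1
  · rw [Finset.sum_comm]
    refine Finset.sum_congr rfl fun k _ => ?_
    rw [Finset.sum_comm]
    refine Finset.sum_congr rfl fun j _ => ?_
    exact hop_in n S k j _
  · rw [Finset.sum_comm]
    refine Finset.sum_congr rfl fun j _ => ?_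
    exact entry_in n S j _

private lemma entry_le (n : ℕ) (S : Finset (Fin n)) :
    ∑ j : Fin n, (if j.val = 0 ∧ j ∈ S then (1 / 2 : ℝ) else 0) ≤ 1 / 2 := by
  calc ∑ j : Fin n, (if j.val = 0 ∧ j ∈ S then (1 / 2 : ℝ) else 0)
      ≤ ∑ j : Fin n, (if j.val = 0 then (1 / 2 : ℝ) else 0) := by
        refine Finset.sum_le_sum fun j _ => ?_
        by_cases h1 : j.val = 0
        · by_cases h2 : j ∈ S
          · rw [if_pos ⟨h1, h2⟩, if_pos h1]
          · rw [if_neg (fun hc => h2 hc.2), if_pos h1]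
            norm_num
        · rw [if_neg (fun hc => h1 hc.1), if_neg h1]
    _ ≤ 1 / 2 := by
        rcases Nat.eq_zero_or_pos n with hn | hn
        · subst hn
          simp
        · have hstep : ∀ j : Fin n, (if j.val = 0 then (1 / 2 : ℝ) else 0) =
              if j = ⟨0, hn⟩ then (1 / 2 : ℝ) else 0 := by
            intro j
            refine if_congr ?_ rfl rfl
            rw [Fin.ext_iff]
          rw [Finset.sum_congr rfl (fun j _ => hstep j), Finset.sum_ite_eq']
          simp

theorem qq_entry (n : ℕ) (S : Finset (Fin n)) :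
    ∑ S' ∈ univ.filter (fun S' : Finset (Fin n) => S'.card + 1 = S.card), qq n S' S ≤ 1 / 2 := by
  have hent : ∀ S' : Finset (Fin n),
      0 ≤ ∑ j : Fin n, if j.val = 0 ∧ j ∉ S' ∧ S = insert j S' then (1 / 2 : ℝ) else 0 := by
    intro S'
    refine Finset.sum_nonneg fun j _ => ?_
    split_ifs
    · norm_num
    · exact le_rfl
  have h1 : ∀ S' ∈ univ.filter (fun S' : Finset (Fin n) => S'.card + 1 = S.card),
      qq n S' S = ∑ j : Fin n, if j.val = 0 ∧ j ∉ S' ∧ S = insert j S' then (1 / 2 : ℝ) else 0 := by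
    intro S' hS'
    rw [Finset.mem_filter] at hS'
    unfold qq
    have e1 : ∀ k j : Fin n, (if j.val = k.val + 1 ∧ k ∈ S' ∧ j ∉ S' ∧ S = insert j (S'.erase k)
        then 1 - (j.val : ℝ) / n else 0) = 0 := by
      intro k j
      rw [if_neg]
      rintro ⟨hjk, hk, hj, hS⟩
      have hj' : j ∉ S'.erase k := fun hc => hj (Finset.mem_of_mem_erase hc)
      have hc : S.card = S'.card := by
        rw [hS, Finset.card_insert_of_notMem hj', Finset.card_erase_of_mem hk]
        have hpos : 0 < S'.card := Finset.card_pos.mpr ⟨k, hk⟩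
        omega
      omega
    simp only [e1, Finset.sum_const_zero, zero_add]
  rw [Finset.sum_congr rfl h1]
  calc ∑ S' ∈ univ.filter (fun S' : Finset (Fin n) => S'.card + 1 = S.card),
        ∑ j : Fin n, (if j.val = 0 ∧ j ∉ S' ∧ S = insert j S' then (1 / 2 : ℝ) else 0)
      ≤ ∑ S' : Finset (Fin n),
          ∑ j : Fin n, (if j.val = 0 ∧ j ∉ S' ∧ S = insert j S' then (1 / 2 : ℝ) else 0) :=
        Finset.sum_le_sum_of_subset_of_nonneg (Finset.filter_subset _ _) (fun S' _ _ => hent S')
    _ = ∑ j : Fin n, if j.val = 0 ∧ j ∈ S then (1 / 2 : ℝ) else 0 := by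
        rw [Finset.sum_comm]
        exact Finset.sum_congr rfl fun j _ => entry_in n S j _
    _ ≤ 1 / 2 := entry_le n S

end Vale.Agent.Lib.P160.H99
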