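import Vale.Agent.Lib.P160.RV.Defs

/-!
# P160: a vector takes at most `2 * dabs + 1` values on a set of coordinates
(pool piece L3, helper99 copy)
-/

namespace Vale.Agent.Lib.P160.H99

open Vale.Agent.Lib.P160 Finset

theorem card_image_le_dabs {n : ℕ} (v : Fin n → ℝ) (T : Finset (Fin n)) :
    (T.image v).card ≤ 2 * dabs (fun j : {k // k ∈ T} => v j.1) + 1 := by
  have hsub : T.image v ⊆
      (({0} : Finset ℝ) ∪
        ((univ.filter fun j : {k // k ∈ T} => v j.1 ≠ 0).image fun j => |v j.1|)) ∪
      (((univ.filter fun j : {k // k ∈ T} => v j.1 ≠ 0).image fun j => |v j.1|).image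
        fun a => -a) := by
    intro y hy
    obtain ⟨j, hj, rfl⟩ := Finset.mem_image.mp hy
    by_cases h0 : v j = 0
    · rw [h0]
      exact Finset.mem_union_left _ (Finset.mem_union_left _ (Finset.mem_singleton_self 0))
    · have hmem : |v j| ∈
          ((univ.filter fun j : {k // k ∈ T} => v j.1 ≠ 0).image fun j => |v j.1|) :=
        Finset.mem_image.mpr ⟨⟨j, hj⟩, Finset.mem_filter.mpr ⟨Finset.mem_univ _, h0⟩, rfl⟩
      rcases abs_choice (v j) with h | h
      · refine Finset.mem_union_left _ (Finset.mem_union_right _ ?_)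
        rw [← h]
        exact hmem
      · refine Finset.mem_union_right _ (Finset.mem_image.mpr ⟨|v j|, hmem, ?_⟩)
        rw [h, neg_neg]
  have hcard := Finset.card_le_card hsub
  have h1 := Finset.card_union_le
    ((({0} : Finset ℝ) ∪
        ((univ.filter fun j : {k // k ∈ T} => v j.1 ≠ 0).image fun j => |v j.1|)))
    ((((univ.filter fun j : {k // k ∈ T} => v j.1 ≠ 0).image fun j => |v j.1|).image
        fun a => -a))
  have h2 := Finset.card_union_le ({0} : Finset ℝ)
    ((univ.filter fun j : {k // k ∈ T} => v j.1 ≠ 0).image fun j => |v j.1|)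
  have h3 : ((((univ.filter fun j : {k // k ∈ T} => v j.1 ≠ 0).image fun j => |v j.1|).image
        fun a => -a)).card ≤
      ((univ.filter fun j : {k // k ∈ T} => v j.1 ≠ 0).image fun j => |v j.1|).card :=
    Finset.card_image_le
  have h4 : ({0} : Finset ℝ).card = 1 := Finset.card_singleton 0
  have hd : dabs (fun j : {k // k ∈ T} => v j.1) =
      ((univ.filter fun j : {k // k ∈ T} => v j.1 ≠ 0).image fun j => |v j.1|).card := rfl
  rw [hd]
  omega

end Vale.Agent.Lib.P160.H99
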