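import Vale.Agent.Lib.P160.RV.Defs2

/-!
# P160: dimension of the vectors that follow a pattern outside a set of coordinates
(pool piece L1, helper99 copy)
-/

namespace Vale.Agent.Lib.P160.H99

open Vale.Agent.Lib.P160 Finset

theorem finrank_patOut_le {n L : ℕ} (I : Finset (Fin n)) (q : Fin n → Fin L) :
    Module.finrank ℝ ↥(patOut I q) ≤ I.card + L := by
  classical
  let g : Fin L → ((Fin n → ℝ) →ₗ[ℝ] ℝ) := fun l =>
    if h : ∃ j, j ∉ I ∧ q j = l then LinearMap.proj (Classical.choose h) else 0
  let F : (Fin n → ℝ) →ₗ[ℝ] ((↥I → ℝ) × (Fin L → ℝ)) :=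
    (LinearMap.funLeft ℝ ℝ (Subtype.val : ↥I → Fin n)).prod (LinearMap.pi g)
  let f : ↥(patOut I q) →ₗ[ℝ] ((↥I → ℝ) × (Fin L → ℝ)) := F.comp (patOut I q).subtype
  have hinj : Function.Injective f := by
    intro u w huw
    apply Subtype.ext
    funext j
    have h1 : (fun i : ↥I => u.1 i.1) = fun i : ↥I => w.1 i.1 := congrArg Prod.fst huw
    have h2 : (fun l => g l u.1) = fun l => g l w.1 := congrArg Prod.snd huw
    by_cases hj : j ∈ I
    · exact congrFun h1 ⟨j, hj⟩
    · have hex : ∃ j', j' ∉ I ∧ q j' = q j := ⟨j, hj, rfl⟩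
      have h3 : g (q j) u.1 = g (q j) w.1 := congrFun h2 (q j)
      have hg : g (q j) = LinearMap.proj (Classical.choose hex) := dif_pos hex
      rw [hg] at h3
      have hu := (mem_patOut.mp u.2) j (Classical.choose hex) hj (Classical.choose_spec hex).1
        (Classical.choose_spec hex).2.symm
      have hw := (mem_patOut.mp w.2) j (Classical.choose hex) hj (Classical.choose_spec hex).1
        (Classical.choose_spec hex).2.symm
      rw [hu, hw]
      exact h3
  calc Module.finrank ℝ ↥(patOut I q)
      ≤ Module.finrank ℝ ((↥I → ℝ) × (Fin L → ℝ)) :=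
        LinearMap.finrank_le_finrank_of_injective hinj
    _ = I.card + L := by
        rw [Module.finrank_prod, Module.finrank_fintype_fun_eq_card,
          Module.finrank_fintype_fun_eq_card, Fintype.card_coe, Fintype.card_fin]

end Vale.Agent.Lib.P160.H99
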