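import Mathlib

/-!
# P160: a factorial bound for the union over patterns (pool piece N2, helper99 copy)
-/

namespace Vale.Agent.Lib.P160.H99

theorem rv_num2 : ∃ N₀ : ℕ, ∀ m n : ℕ, N₀ ≤ n → 30 * m ≤ n →
    (2 ^ n * (2 * Nat.sqrt (Nat.sqrt n) + 1) ^ n) ^ 2 * 2 ^ (7 * n) ≤
      (n - (m + (2 * Nat.sqrt (Nat.sqrt n) + 1)) -
        ⌈40 * (n : ℝ) / Real.logb 2 (n : ℝ)⌉₊).factorial := by
  refine ⟨2 ^ 240, fun m n hn hm => ?_⟩
  have hbig : 2 ^ 72 * 81 ^ 4 * 59049 ≤ n := le_trans (by norm_num) hn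
  have hn6 : 1000000 ≤ n := le_trans (by norm_num) hn
  set r := Nat.sqrt n with hr
  set s := Nat.sqrt r with hs
  have hrr : r * r ≤ n := Nat.sqrt_le n
  have hss : s * s ≤ r := Nat.sqrt_le r
  have hsr : s ≤ r := Nat.sqrt_le_self r
  have hr1000 : 1000 * r ≤ n := by
    rcases Nat.lt_or_ge r 1000 with h | h
    · omega
    · exact le_trans (Nat.mul_le_mul_right r h) hrr
  have hs1 : 1 ≤ s := by
    have hr1 : 0 < r := Nat.sqrt_pos.mpr (by omega)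
    exact Nat.sqrt_pos.mpr hr1
  set c := ⌈40 * (n : ℝ) / Real.logb 2 (n : ℝ)⌉₊ with hc
  have hc_le : c ≤ n / 6 + 1 := by
    rw [hc, Nat.ceil_le]
    have hnpos : (0 : ℝ) < n := by exact_mod_cast (by omega : 0 < n)
    have hlog : (240 : ℝ) ≤ Real.logb 2 (n : ℝ) := by
      rw [Real.le_logb_iff_rpow_le (by norm_num) hnpos]
      rw [show (240 : ℝ) = ((240 : ℕ) : ℝ) by norm_num, Real.rpow_natCast]
      exact_mod_cast hn
    have h1 : 40 * (n : ℝ) / Real.logb 2 (n : ℝ) ≤ 40 * (n : ℝ) / 240 :=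
      div_le_div_of_nonneg_left (by positivity) (by norm_num) hlog
    have h2 : (n : ℝ) ≤ 6 * ((n / 6 + 1 : ℕ) : ℝ) := by
      have h3 : n ≤ 6 * (n / 6 + 1) := by omega
      exact_mod_cast h3
    linarith
  set L := 2 * s + 1 with hL
  set j := n / 8 with hj
  set k := n - (m + L) - c with hk
  have hjk : j ≤ k := by omega
  have hexp : 5 * n ≤ 8 * (k - j) := by omega
  have hj1 : 1 ≤ j := by omega
  have h9j : n ≤ 9 * j := by omega
  have hfact : j ^ (k - j) ≤ k.factorial := by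
    have h := Nat.factorial_mul_pow_sub_le_factorial hjk
    have hpos : 1 ≤ j.factorial := Nat.factorial_pos j
    calc j ^ (k - j) = 1 * j ^ (k - j) := (one_mul _).symm
      _ ≤ j.factorial * j ^ (k - j) := Nat.mul_le_mul_right _ hpos
      _ ≤ k.factorial := h
  refine le_trans ?_ hfact
  rw [← Nat.pow_le_pow_iff_left (n := 8) (by norm_num)]
  have hL4 : L ^ 4 ≤ 81 * n := by
    have hL3 : L ≤ 3 * s := by omega
    have hL2 : L ^ 2 ≤ 9 * r := by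
      calc L ^ 2 ≤ (3 * s) ^ 2 := Nat.pow_le_pow_left hL3 2
        _ = 9 * (s * s) := by ring
        _ ≤ 9 * r := Nat.mul_le_mul_left 9 hss
    calc L ^ 4 = (L ^ 2) ^ 2 := by ring
      _ ≤ (9 * r) ^ 2 := Nat.pow_le_pow_left hL2 2
      _ = 81 * (r * r) := by ring
      _ ≤ 81 * n := Nat.mul_le_mul_left 81 hrr
  have hbase : 2 ^ 72 * L ^ 16 ≤ j ^ 5 := by
    have h1 : L ^ 16 ≤ (81 * n) ^ 4 := by
      calc L ^ 16 = (L ^ 4) ^ 4 := by ring
        _ ≤ (81 * n) ^ 4 := Nat.pow_le_pow_left hL4 4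
    have h2 : n ^ 5 ≤ 59049 * j ^ 5 := by
      calc n ^ 5 ≤ (9 * j) ^ 5 := Nat.pow_le_pow_left h9j 5
        _ = 59049 * j ^ 5 := by ring
    have h3 : 2 ^ 72 * 81 ^ 4 * 59049 * n ^ 4 ≤ n ^ 5 := by
      calc 2 ^ 72 * 81 ^ 4 * 59049 * n ^ 4 ≤ n * n ^ 4 := Nat.mul_le_mul_right _ hbig
        _ = n ^ 5 := by ring
    have h4 : 59049 * (2 ^ 72 * L ^ 16) ≤ 59049 * j ^ 5 := by
      calc 59049 * (2 ^ 72 * L ^ 16) ≤ 59049 * (2 ^ 72 * (81 * n) ^ 4) :=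
            Nat.mul_le_mul_left _ (Nat.mul_le_mul_left _ h1)
        _ = 2 ^ 72 * 81 ^ 4 * 59049 * n ^ 4 := by ring
        _ ≤ n ^ 5 := h3
        _ ≤ 59049 * j ^ 5 := h2
    exact Nat.le_of_mul_le_mul_left h4 (by norm_num)
  calc ((2 ^ n * L ^ n) ^ 2 * 2 ^ (7 * n)) ^ 8 = 2 ^ (72 * n) * L ^ (16 * n) := by ring
    _ = (2 ^ 72 * L ^ 16) ^ n := by rw [mul_pow, ← pow_mul, ← pow_mul]
    _ ≤ (j ^ 5) ^ n := Nat.pow_le_pow_left hbase n
    _ = j ^ (5 * n) := by rw [← pow_mul]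
    _ ≤ j ^ (8 * (k - j)) := Nat.pow_le_pow_right hj1 hexp
    _ = (j ^ (k - j)) ^ 8 := by rw [← pow_mul, mul_comm]

end Vale.Agent.Lib.P160.H99
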